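import Vale.Agent.P027M.M.Exp
import Vale.Agent.P027M.M.Hk
import Vale.Agent.P022.H587.L3.Kum3
import Vale.Agent.P022.H964.L3.RootLS

/-! # P027 route M: roots of Kummer classes and their characters -/

set_option autoImplicit false
set_option linter.all false

open UpperHalfPlane Matrix
open scoped MatrixGroups Manifold IntermediateField

noncomputable section

namespace Vale.Agent.P027M.Kp

open Vale.Agent.P022 Vale.Agent.P022.H218.L3 Vale.Agent.P022.H231.L3 Vale.Agent.P022.H236.L3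
  Vale.Agent.P022.H542.L3 Vale.Agent.P019P P025H816 P025H492 Vale.Agent.P027M.M
open Vale.Agent.P022.H587.L3 (IsChar Dv om)

theorem order_inv (s : LS) : s⁻¹.order = -s.order := by
  by_cases h : s = 0
  · simp [h]
  have := HahnSeries.order_mul h (inv_ne_zero h)
  rw [mul_inv_cancel₀ h, HahnSeries.order_one] at this
  omega

theorem order_zpow (s : LS) (n : ℤ) : (s ^ n).order = n * s.order := by
  obtain ⟨k, rfl | rfl⟩ := n.eq_nat_or_neg
  · rw [_root_.zpow_natCast, HahnSeries.order_pow, nsmul_eq_mul]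
  · rw [_root_.zpow_neg, order_inv, _root_.zpow_natCast, HahnSeries.order_pow, nsmul_eq_mul, neg_mul]

/-- the order of an embedding in the Laurent series is a multiple of the order at a place -/
theorem dvd_order {k F : Type} [Field k] [Field F] [Algebra k F] [CFF k F] (φ : F →+* LS)
    (hc : ∀ a : k, (φ (algebraMap k F a)).order = 0) {m : ℕ} {f : Fˣ} (hf : f ∈ divU k F m) :
    (m : ℤ) ∣ (φ (f : F)).order := by
  have mul : ∀ x y, x ≠ 0 → y ≠ 0 → (φ (x * y)).order = (φ x).order + (φ y).order :=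
    fun x y hx hy => by
      rw [map_mul, HahnSeries.order_mul ((map_ne_zero φ).2 hx) ((map_ne_zero φ).2 hy)]
  have add : ∀ x y, x + y ≠ 0 → min (φ x).order (φ y).order ≤ (φ (x + y)).order :=
    fun x y h => by
      have := (map_ne_zero φ).2 h
      rw [map_add] at this ⊢
      exact HahnSeries.min_order_le_order_add this
  let O : ValuationSubring F :=
    { carrier := {x | 0 ≤ (φ x).order}
      mul_mem' := fun {x y} hx hy => by
        by_cases a : x = 0
        · simp [a]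
        by_cases b : y = 0
        · simp [b]
        exact (mul x y a b).ge.trans' (add_nonneg hx hy)
      one_mem' := by simp
      add_mem' := fun {x y} hx hy => by
        by_cases a : x + y = 0
        · simp [a]
        exact (le_min hx hy).trans (add x y a)
      zero_mem' := by simp
      neg_mem' := fun {x} hx => by simpa using hx
      mem_or_inv_mem' := fun x => by
        show 0 ≤ (φ x).order ∨ 0 ≤ (φ x⁻¹).order
        rw [map_inv₀, order_inv]
        omega }
  have hO : ∀ x, x ∈ O ↔ 0 ≤ (φ x).order := fun x => Iff.rfl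
  have unit : ∀ u : F, u ∈ O → u⁻¹ ∈ O → (φ u).order = 0 := by
    intro u h1 h2
    rw [hO] at h1 h2
    rw [map_inv₀, order_inv] at h2
    omega
  by_cases hT : O = ⊤
  · rw [unit f (hT ▸ ValuationSubring.mem_top _) (hT ▸ ValuationSubring.mem_top _)]
    exact dvd_zero _
  let P : Plk k F := ⟨O, fun a => (hc a).ge, hT⟩
  obtain ⟨π, hπ⟩ := (ord_spec P).one
  have hπ0 : π ≠ 0 := by
    rintro rfl
    rw [ord_zero] at hπ
    omega
  obtain ⟨c, hc'⟩ := mem_divU.1 hf P
  have hz : π ^ ord P (f : F) ≠ 0 := zpow_ne_zero _ hπ0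
  have hu0 : (f : F) * (π ^ ord P (f : F))⁻¹ ≠ 0 := mul_ne_zero f.ne_zero (inv_ne_zero hz)
  have hu : ord P ((f : F) * (π ^ ord P (f : F))⁻¹) = 0 := by
    rw [ord_mul P f.ne_zero (inv_ne_zero hz), ord_inv, ord_zpow, hπ]
    ring
  have h1 := unit _ (((ord_spec P).mem _).2 (Or.inr hu.ge))
    (((ord_spec P).mem _).2 (Or.inr (by rw [ord_inv, hu]; simp)))
  rw [mul _ _ f.ne_zero (inv_ne_zero hz), map_inv₀, order_inv, map_zpow₀, order_zpow, hc'] at h1
  exact ⟨c * (φ π).order, by linarith⟩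

/-- the underlying function -/
def cvL (Γ : Subgroup SL(2, ℤ)) : L Γ →+* Mer := (cv : FF →+* Mer).comp (L Γ).val

theorem cvL_apply {Γ : Subgroup SL(2, ℤ)} (x : L Γ) : cvL Γ x = cv (x : FF) := rfl

theorem cvL_alg {Γ : Subgroup SL(2, ℤ)} (a : Qb) :
    cvL Γ (algebraMap Qb (L Γ) a) = algebraMap ℂ Mer (io a) := cv_alg a

theorem act_cvL {Γ : Subgroup SL(2, ℤ)} (x : L Γ) {γ : SL(2, ℤ)} (h : γ ∈ Γ) :
    act γ (cvL Γ x) = cvL Γ x := x.2 γ h

/-- **roots exist** -/
theorem exists_root (X : Mdl) {Γ : Subgroup SL(2, ℤ)} [CFF Qb (L Γ)] {m : ℕ} (hm : 0 < m)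
    {f : (L Γ)ˣ} (hf : f ∈ divU Qb (L Γ) m) : ∃ y : Mer, y ≠ 0 ∧ y ^ m = cvL Γ f := by
  obtain ⟨P, hP, -, hd, -⟩ := X.hol
  refine H587.L3.exists_root hm ((map_ne_zero _).2 f.ne_zero) ?_
  intro g h hg hh g0 h0 e τ
  obtain ⟨Θ, -, h2⟩ := H587.L3.exists_Theta hP τ (hd τ)
  have h3 := dvd_order (k := Qb) ((Θ : Mer →+* LS).comp (cvL Γ)) (fun a => by
    show (Θ (cvL Γ _)).order = 0
    rw [cvL_alg, Θ.commutes, algMap_ls, HahnSeries.order_C]) hf
  have h4 : ((Θ : Mer →+* LS).comp (cvL Γ)) (f : L Γ) = Θ (inc g hg / inc h hh) := by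
    rw [← e]; rfl
  rwa [h4, H587.L3.order_Theta h2 hg hh g0 h0] at h3

theorem T_pow_mem (M : ℕ) : ModularGroup.T ^ M ∈ CongruenceSubgroup.Gamma M := by
  have h := ModularGroup.coe_T_zpow (M : ℤ)
  rw [_root_.zpow_natCast] at h
  rw [CongruenceSubgroup.Gamma_mem]
  have e : ∀ i j, (ModularGroup.T ^ M) i j = !![1, (M : ℤ); 0, 1] i j := fun i j => by rw [← h]
  simp [e]

/-- the stabiliser of a function -/
def stab (y : Mer) : Subgroup SL(2, ℤ) where
  carrier := {γ | act γ y = y}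
  one_mem' := by
    show act 1 y = y
    rw [map_one]; rfl
  mul_mem' := by
    intro a b ha hb
    show act (a * b) y = y
    rw [map_mul, AlgEquiv.mul_apply, show act b y = y from hb]
    exact ha
  inv_mem' := by
    intro a ha
    show act a⁻¹ y = y
    conv_lhs => rw [← show act a y = y from ha, ← AlgEquiv.mul_apply, ← map_mul, inv_mul_cancel,
      map_one]
    rfl

theorem mem_stab {y : Mer} {γ : SL(2, ℤ)} : γ ∈ stab y ↔ act γ y = y := Iff.rfl

/-- a root is a modular function for its stabiliser -/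
theorem root_mem {m : ℕ} (hm : 0 < m) {y : Mer} (hy : y ≠ 0) {x : FF} (e : y ^ m = cv x) :
    ∃ M, 0 < M ∧ y ∈ MF (stab y ⊓ CongruenceSubgroup.Gamma M) := by
  obtain ⟨M, hM, h1, -⟩ := mem_FS.1 (cv_mem x)
  refine ⟨M, hM, H587.L3.mem_of_trivial hm hy (e ▸ MF_mono inf_le_right h1) fun γ => ?_⟩
  have h2 : act (γ : SL(2, ℤ))⁻¹ y = y := (stab y).inv_mem γ.2.1
  rw [h2]
  simp

theorem exM_pow {N : ℕ} {s : LS} {x : Mer} (h : ExM N s x) (n : ℕ) : ExM N (s ^ n) (x ^ n) := by
  have := ExM.prod (N := N) (Finset.range n) (X := fun _ => s) (x := fun _ => x) fun _ _ => h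
  simpa using this

theorem order_sb (m : ℕ) (hm : 0 < m) (x : LS) : (sb m hm x).order = m * x.order := by
  by_cases h : x = 0
  · simp [h]
  have h1 : (sb m hm x).coeff (m * x.order) ≠ 0 := by
    rw [coeff_sb_mul]
    exact HahnSeries.coeff_order_eq_zero.not.2 h
  have h0 : sb m hm x ≠ 0 := fun e => h1 (by rw [e]; rfl)
  refine le_antisymm (HahnSeries.order_le_of_coeff_ne_zero h1) ?_
  have h2 := HahnSeries.coeff_order_eq_zero.not.2 h0
  by_cases hd : (m : ℤ) ∣ (sb m hm x).order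
  · obtain ⟨k, hk⟩ := hd
    rw [hk, coeff_sb_mul] at h2
    rw [hk]
    exact mul_le_mul_of_nonneg_left (HahnSeries.order_le_of_coeff_ne_zero h2) (by positivity)
  · exact absurd (coeff_sb_of_not_dvd _ _ _ _ hd) h2

/-- **a root is periodic if the order at the cusp is divisible** -/
theorem per_root {m h : ℕ} (hm : 0 < m) (hh : 0 < h) {y : Mer} (hy : y ≠ 0) {x : FF}
    (e : y ^ m = cv x) {s : LS} (hs : ExM h s (cv x)) (hd : (m : ℤ) ∣ s.order) :
    act (ModularGroup.T ^ h) y = y := by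
  obtain ⟨M, hM, hy1⟩ := root_mem hm hy e
  have hx : act (ModularGroup.T ^ h)⁻¹ (cv x) = cv x := (stab _).inv_mem (Exp.per hh hs)
  obtain ⟨c, hc, hcy⟩ := H587.L3.exists_const hm (x := act (ModularGroup.T ^ h)⁻¹ y / y) (by
    rw [div_pow, ← map_pow, e, hx, ← e, div_self (pow_ne_zero _ hy)])
  have hcy' : act (ModularGroup.T ^ h)⁻¹ y = algebraMap ℂ Mer c * y := by
    rw [← hcy, div_mul_cancel₀ _ hy]
  have hit : ∀ k : ℕ, act ((ModularGroup.T ^ h)⁻¹ ^ k) y = algebraMap ℂ Mer ((c ^ k : ℂˣ) : ℂ) * y := by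
    intro k
    induction k with
    | zero => simp
    | succ k ih =>
      rw [pow_succ', map_mul, AlgEquiv.mul_apply, ih, map_mul, AlgEquiv.commutes, hcy', pow_succ,
        Units.val_mul, map_mul, mul_assoc]
  have hn : 0 < h * (M * m) := Nat.mul_pos hh (Nat.mul_pos hM hm)
  haveI : NeZero (h * (M * m)) := ⟨hn.ne'⟩
  have hT : ModularGroup.T ^ (h * (M * m)) ∈ stab y ⊓ CongruenceSubgroup.Gamma M := by
    constructor
    · have h1 : (ModularGroup.T ^ h)⁻¹ ^ m ∈ stab y := by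
        rw [mem_stab, hit, hc]
        simp
      have h2 := (stab y).pow_mem ((stab y).inv_mem h1) M
      rwa [inv_pow, ← pow_mul, inv_pow, inv_inv, ← pow_mul, mul_comm m M] at h2
    · have h2 := (CongruenceSubgroup.Gamma M).pow_mem (T_pow_mem M) (h * m)
      rwa [← pow_mul, mul_left_comm] at h2
  obtain ⟨r, hr⟩ := MF_le_EF hT hy1
  have h1 := exM_pow hr m
  rw [e] at h1
  have h2 := h1.unique hn.ne' (exM_period (Nat.mul_pos hM hm) hh.ne' hs)
  have h3 := congrArg HahnSeries.order h2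
  rw [order_sb, HahnSeries.order_pow, nsmul_eq_mul] at h3
  obtain ⟨k, hk⟩ := hd
  have h4 : r.order = (M * m : ℕ) * k := by
    have hm' : (m : ℤ) ≠ 0 := by exact_mod_cast hm.ne'
    apply mul_left_cancel₀ hm'
    rw [h3, hk]
    push_cast
    ring
  have h5 := Exp.tr hn (h : ℤ) hr
  rw [_root_.zpow_natCast, hcy'] at h5
  have h6 := h5.unique hn.ne' ((ExM.const _ (c : ℂ)).mul hr)
  have hr0 : r ≠ 0 := by
    rintro rfl
    have h0 := ExM.const (h * (M * m)) 0
    rw [map_zero, map_zero] at h0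
    exact hy (Exp.inj hr h0)
  have h7 := congrArg (fun z : LS => z.coeff r.order) h6
  simp only [coeff_rs, HahnSeries.C_mul_eq_smul, HahnSeries.coeff_smul, smul_eq_mul] at h7
  have h8 := mul_right_cancel₀ (HahnSeries.coeff_order_eq_zero.not.2 hr0) h7
  have h9 : ze (h * (M * m)) h ^ r.order = 1 := by
    have a := Exp.ze_pow hh (Nat.mul_pos hM hm) 1
    rw [mul_one, _root_.zpow_one] at a
    rw [a, h4, _root_.zpow_mul, _root_.zpow_natCast,
      (Complex.isPrimitiveRoot_exp _ (Nat.mul_pos hM hm).ne').pow_eq_one, _root_.one_zpow]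
  have h10 : (ModularGroup.T ^ h)⁻¹ ∈ stab y := by
    rw [mem_stab, hcy', ← h8, h9, map_one, one_mul]
  exact (inv_mem_iff (H := stab y)).1 h10

theorem order_ioL (x : LaurentSeries Qb) : (ioL x).order = x.order := by
  by_cases h : x = 0
  · simp [h]
  have hi : ∀ a : Qb, io a = 0 ↔ a = 0 := fun a => map_eq_zero_iff io (io : Qb →+* ℂ).injective
  have h0 : ioL x ≠ 0 := (map_ne_zero _).2 h
  refine le_antisymm (HahnSeries.order_le_of_coeff_ne_zero ?_)
    (HahnSeries.order_le_of_coeff_ne_zero ?_)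
  · rw [coeff_ioL]
    exact (hi _).not.2 (HahnSeries.coeff_order_eq_zero.not.2 h)
  · have := HahnSeries.coeff_order_eq_zero.not.2 h0
    rw [coeff_ioL] at this
    exact (hi _).not.1 this

/-- a root of an algebraic series is algebraic -/
theorem alg_root {m : ℕ} (hm : 0 < m) {r : LS} (h : Alg (r ^ m)) : Alg r := by
  obtain ⟨x, hx⟩ := alg_iff.1 h
  by_cases hr : r = 0
  · exact alg_iff.2 ⟨0, by rw [hr, map_zero]⟩
  obtain ⟨g, hg⟩ := H964.L3.exists_root m hm x (by
    rw [← order_ioL, hx, HahnSeries.order_pow, nsmul_eq_mul]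
    exact dvd_mul_right _ _)
  have hg0 : ioL g ≠ 0 := by
    intro e
    rw [← hg, map_pow, e, zero_pow hm.ne'] at hx
    exact pow_ne_zero _ hr hx.symm
  haveI : NeZero m := ⟨hm.ne'⟩
  haveI : NeZero (m : Qb) := ⟨Nat.cast_ne_zero.2 hm.ne'⟩
  obtain ⟨ζ, hζ⟩ := HasEnoughRootsOfUnity.exists_primitiveRoot Qb m
  have h1 : IsPrimitiveRoot (ioL (HahnSeries.C ζ)) m :=
    (hζ.map_of_injective (f := (HahnSeries.C : Qb →+* LaurentSeries Qb))
      (RingHom.injective _)).map_of_injective (f := ioL) ioL.injective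
  obtain ⟨i, -, hi⟩ := h1.eq_pow_of_pow_eq_one (ξ := r / ioL g) (by
    rw [div_pow, ← map_pow, hg, hx, div_self (pow_ne_zero _ hr)])
  refine alg_iff.2 ⟨HahnSeries.C ζ ^ i * g, ?_⟩
  rw [map_mul, map_pow, hi, div_mul_cancel₀ _ hg0]

/-- a root whose stabiliser contains a principal congruence subgroup lies in `FF` -/
theorem root_FS {m N : ℕ} (hm : 0 < m) (hN : 0 < N) {y : Mer} (hy : y ≠ 0) {x : FF}
    (e : y ^ m = cv x) (h : CongruenceSubgroup.Gamma N ≤ stab y) : y ∈ FS := by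
  obtain ⟨M, hM, hy1⟩ := root_mem hm hy e
  have hn : 0 < N * M := Nat.mul_pos hN hM
  haveI : NeZero (N * M) := ⟨hn.ne'⟩
  have h1 : y ∈ MF (CongruenceSubgroup.Gamma (N * M)) :=
    MF_mono (le_inf (gamma_le.trans h) (by rw [mul_comm]; exact gamma_le)) hy1
  obtain ⟨r, hr⟩ := MF_le_EF (T_pow_mem (N * M)) h1
  refine ⟨N * M, hn, h1, r, hr, alg_root hm ?_⟩
  have h2 := exM_pow hr m
  rw [e] at h2
  exact Exp.alg hn h2

end Vale.Agent.P027M.Kp
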