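import Vale.Agent.P027M.Kp.Kap1
import Vale.Agent.P027M.TW.EigK

/-! # P027 route M: the bridge from Kummer classes to parabolic homomorphisms -/

set_option autoImplicit false
set_option linter.all false

open UpperHalfPlane Matrix
open scoped MatrixGroups Manifold IntermediateField

noncomputable section

namespace Vale.Agent.P027M.Kp

open Vale.Agent.P022 Vale.Agent.P022.H218.L3 Vale.Agent.P022.H231.L3 Vale.Agent.P022.H236.L3
  Vale.Agent.P022.H542.L3 Vale.Agent.P019P P025H816 P025H492 Vale.Agent.P027M.M Vale.Agent.P027M.TW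
open Vale.Agent.P022.H587.L3 (IsChar Dv om)

variable (X : Mdl) {Γ : Subgroup SL(2, ℤ)} [CFF Qb (L Γ)] {m : ℕ} (hm : 0 < m)

include X hm in
theorem exists_chr (f : divU Qb (L Γ) m) : ∃ φ : Γ →* ℂˣ, ∀ y : Mer, y ^ m = cvL Γ (f : (L Γ)ˣ) →
    IsChar Γ y φ := by
  obtain ⟨y, hy, e⟩ := exists_root X hm f.2
  obtain ⟨φ, -, -, h⟩ := H587.L3.exists_char (Γ := Γ) hm hy fun γ hγ => by
    rw [e]; exact act_cvL _ hγ
  refine ⟨φ, fun z ez => ?_⟩
  obtain ⟨c, -, hc⟩ := H587.L3.exists_const hm (x := z / y) (by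
    rw [div_pow, ez, ← e, div_self (pow_ne_zero _ hy)])
  have h2 : z = algebraMap ℂ Mer c * y := by rw [← hc, div_mul_cancel₀ _ hy]
  rw [h2]
  exact h.const _

/-- the character of a function -/
def chr (f : divU Qb (L Γ) m) : Γ →* ℂˣ := (exists_chr X hm f).choose

theorem chr_spec (f : divU Qb (L Γ) m) {y : Mer} (e : y ^ m = cvL Γ (f : (L Γ)ˣ)) :
    IsChar Γ y (chr X hm f) := (exists_chr X hm f).choose_spec y e

theorem root_ne (f : (L Γ)ˣ) {y : Mer} (e : y ^ m = cvL Γ f) (hm : 0 < m) : y ≠ 0 := by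
  rintro rfl
  rw [zero_pow hm.ne'] at e
  exact (map_ne_zero _).2 f.ne_zero e.symm

theorem chr_eq (f : divU Qb (L Γ) m) {y : Mer} (e : y ^ m = cvL Γ (f : (L Γ)ˣ)) {φ : Γ →* ℂˣ}
    (h : IsChar Γ y φ) : chr X hm f = φ := (chr_spec X hm f e).unique h (root_ne _ e hm)

/-- the character as a homomorphism -/
def chrH : divU Qb (L Γ) m →* (Γ →* ℂˣ) := MonoidHom.mk' (chr X hm) fun f g => by
  obtain ⟨y, -, e⟩ := exists_root X hm f.2
  obtain ⟨z, -, e'⟩ := exists_root X hm g.2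
  exact chr_eq X hm _ (by rw [mul_pow, e, e', ← map_mul]; rfl)
    ((chr_spec X hm f e).mul (chr_spec X hm g e'))

theorem chr_pow (f : divU Qb (L Γ) m) (h : (f : (L Γ)ˣ) ∈ powU (L Γ) m) : chr X hm f = 1 := by
  obtain ⟨z, hz⟩ := mem_powU.1 h
  refine chr_eq X hm f (y := cvL Γ z) (by rw [← map_pow, ← hz]; rfl) fun γ => ?_
  rw [act_cvL _ (Γ.inv_mem γ.2)]
  simp

/-- the character of a class -/
def chrK : HK Qb (L Γ) m →* (Γ →* ℂˣ) :=
  QuotientGroup.lift _ (chrH X hm) fun f hf => chr_pow X hm f (Subgroup.mem_subgroupOf.1 hf)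

open Classical in
/-- **the bridge** -/
def kap : HA Qb (L Γ) m →+ (SL(2, ℤ) → Additive ℂˣ) := AddMonoidHom.mk'
  (fun x γ => if h : γ ∈ Γ then Additive.ofMul (chrK X hm (Additive.toMul x) ⟨γ, h⟩) else 0)
  fun x y => by
    funext γ
    by_cases h : γ ∈ Γ
    · simp only [Pi.add_apply, dif_pos h, toMul_add, map_mul, MonoidHom.mul_apply, ofMul_mul]
    · simp only [Pi.add_apply, dif_neg h, add_zero]

theorem kap_cl (f : (L Γ)ˣ) (hf : f ∈ divU Qb (L Γ) m) {γ : SL(2, ℤ)} (h : γ ∈ Γ) :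
    kap X hm (cl f hf) γ = Additive.ofMul (chr X hm ⟨f, hf⟩ ⟨γ, h⟩) := dif_pos h

theorem kap_out (x : HA Qb (L Γ) m) {γ : SL(2, ℤ)} (h : γ ∉ Γ) : kap X hm x γ = 0 := dif_neg h

/-- the defining property -/
theorem kap_spec (f : (L Γ)ˣ) (hf : f ∈ divU Qb (L Γ) m) {y : Mer} (e : y ^ m = cvL Γ f)
    {γ : SL(2, ℤ)} (h : γ ∈ Γ) :
    act γ⁻¹ y = algebraMap ℂ Mer ((Additive.toMul (kap X hm (cl f hf) γ) : ℂˣ) : ℂ) * y := by
  rw [kap_cl X hm f hf h]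
  exact chr_spec X hm ⟨f, hf⟩ e ⟨γ, h⟩

theorem kap_eq (f : (L Γ)ˣ) (hf : f ∈ divU Qb (L Γ) m) {y : Mer} (e : y ^ m = cvL Γ f)
    {γ : SL(2, ℤ)} (h : γ ∈ Γ) {c : ℂˣ} (hc : act γ⁻¹ y = algebraMap ℂ Mer (c : ℂ) * y) :
    kap X hm (cl f hf) γ = Additive.ofMul c := by
  have h1 := mul_right_cancel₀ (root_ne f e hm) ((kap_spec X hm f hf e h).symm.trans hc)
  exact congrArg Additive.ofMul (Units.ext ((algebraMap ℂ Mer).injective h1))

theorem kap_add (x : HA Qb (L Γ) m) : AddOn Γ (kap X hm x) := by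
  obtain ⟨f, hf, rfl⟩ := cl_surj x
  intro γ h δ h'
  rw [kap_cl X hm f hf h, kap_cl X hm f hf h', kap_cl X hm f hf (Γ.mul_mem h h'), ← ofMul_mul,
    ← map_mul]
  rfl

theorem cv_pg (γ : SL(2, ℤ)) (x : FF) : cv (X.pg γ x) = act γ⁻¹ (cv x) := by
  rw [Mdl.pg, X.pb_coe, pbz_SL]

theorem act_act (γ δ : SL(2, ℤ)) (x : Mer) : act γ (act δ x) = act (γ * δ) x := by
  rw [map_mul, AlgEquiv.mul_apply]

include X hm in
/-- a root is fixed by the parabolic elements -/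
theorem root_par (f : (L Γ)ˣ) (hf : f ∈ divU Qb (L Γ) m) {y : Mer} (e : y ^ m = cvL Γ f)
    (g : SL(2, ℤ)) (h : ℕ) (hh : 0 < h) (hg : g * ModularGroup.T ^ h * g⁻¹ ∈ Γ) :
    act (g * ModularGroup.T ^ h * g⁻¹) y = y := by
  haveI : NeZero h := ⟨hh.ne'⟩
  have key : ∀ x : L Γ, act g⁻¹ (cvL Γ x) ∈ EF h := by
    intro x
    rw [cvL_apply, ← cv_pg X]
    refine Exp.ex hh ?_
    rw [cv_pg, act_act, show ModularGroup.T ^ h * g⁻¹ = g⁻¹ * (g * ModularGroup.T ^ h * g⁻¹) by group,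
      ← act_act]
    exact congrArg _ (act_cvL x hg)
  let ψ : L Γ →+* EF h :=
    (((act g⁻¹ : Mer ≃ₐ[ℂ] Mer) : Mer →+* Mer).comp (cvL Γ)).codRestrict (EF h) key
  have h1 := dvd_order (k := Qb) ((tex h : EF h →+* LS).comp ψ) (fun a => by
    have a1 : ψ (algebraMap Qb (L Γ) a) = algebraMap ℂ (EF h) (io a) := by
      apply Subtype.ext
      show act g⁻¹ (cvL Γ _) = _
      rw [cvL_alg, AlgEquiv.commutes]
      rfl
    show (tex h (ψ _)).order = 0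
    rw [a1, AlgHom.commutes, algMap_ls, HahnSeries.order_C]) hf
  have h2 : ExM h (tex h (ψ f)) (cv (X.pg g ((f : L Γ) : FF))) := by
    rw [cv_pg]
    exact tex_spec (ψ f)
  have h3 := per_root hm hh (y := act g⁻¹ y) ((map_ne_zero _).2 (root_ne f e hm))
    (by rw [← map_pow, e, cv_pg]; rfl) h2 h1
  rw [mul_assoc, ← act_act, ← act_act, h3, act_act, mul_inv_cancel, map_one]
  rfl

theorem kap_par (x : HA Qb (L Γ) m) : Par Γ (kap X hm x) := by
  obtain ⟨f, hf, rfl⟩ := cl_surj x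
  obtain ⟨y, -, e⟩ := exists_root X hm hf
  intro g h hg
  refine kap_eq X hm f hf e hg (c := 1) ?_
  rw [Units.val_one, map_one, one_mul]
  have pos : ∀ n : ℕ, g * ModularGroup.T ^ n * g⁻¹ ∈ Γ → g * ModularGroup.T ^ n * g⁻¹ ∈ stab y := by
    intro n hn
    rcases n.eq_zero_or_pos with rfl | h0
    · rw [pow_zero, mul_one, mul_inv_cancel]
      exact one_mem _
    · exact root_par X hm f hf e g n h0 hn
  obtain ⟨n, rfl | rfl⟩ := h.eq_nat_or_neg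
  · rw [_root_.zpow_natCast] at hg ⊢
    exact (stab y).inv_mem (pos n hg)
  · have e1 : (g * ModularGroup.T ^ (-(n : ℤ)) * g⁻¹)⁻¹ = g * ModularGroup.T ^ n * g⁻¹ := by
      rw [_root_.zpow_neg, _root_.zpow_natCast]
      group
    rw [e1]
    exact pos n (e1 ▸ Γ.inv_mem hg)

theorem kap_inj {N : ℕ} (hN : 0 < N) (hΓ : CongruenceSubgroup.Gamma N ≤ Γ) (x : HA Qb (L Γ) m)
    (h : ∀ γ ∈ Γ, kap X hm x γ = 0) : x = 0 := by
  obtain ⟨f, hf, rfl⟩ := cl_surj x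
  obtain ⟨y, hy, e⟩ := exists_root X hm hf
  have h1 : Γ ≤ stab y := by
    intro γ hγ
    have := kap_spec X hm f hf e hγ
    rw [h γ hγ, toMul_zero, Units.val_one, map_one, one_mul] at this
    exact (inv_mem_iff (H := stab y)).1 this
  have h2 := root_FS hm hN hy e (hΓ.trans h1)
  rw [cl_eq_zero, mem_powU']
  refine ⟨⟨mkF y h2, fun γ hγ => h1 hγ⟩, ?_⟩
  apply (cvL Γ).injective
  rw [map_pow]
  exact e

/-- **products of pull-backs**: Hecke operators, diamonds, inclusions, norms -/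
theorem kap_prod {Γ' : Subgroup SL(2, ℤ)} [CFF Qb (L Γ')] {I : Type} [Fintype I] (A : I → M.M2)
    (hA : ∀ i, 0 < (A i).det) {u : HA Qb (L Γ) m →+ HA Qb (L Γ') m}
    (hu : Rep (fun x => ∏ i, X.pb (A i) (hA i) x) u) (x : HA Qb (L Γ) m) {γ : SL(2, ℤ)}
    (hγ : γ ∈ Γ') (s : Equiv.Perm I) (g : I → SL(2, ℤ)) (hg : ∀ i, g i ∈ Γ)
    (h : ∀ i, A i * (γ : M.M2) = (g i : M.M2) * A (s i)) :
    ∑ i, kap X hm x (g i) = kap X hm (u x) γ := by
  obtain ⟨f, hf, rfl⟩ := cl_surj x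
  obtain ⟨y, hy, e⟩ := exists_root X hm hf
  obtain ⟨f', hf', h1, h2⟩ := hu f hf
  have e' : (∏ i, pbz (A i) (hA i) y) ^ m = cvL Γ' f' := by
    rw [cvL_apply, h1, map_prod, ← Finset.prod_pow]
    refine Finset.prod_congr rfl fun i _ => ?_
    rw [X.pb_coe, ← map_pow, e]
    rfl
  rw [h2]
  symm
  refine kap_eq X hm f' hf' e' hγ (c := Additive.toMul (∑ i, kap X hm (cl f hf) (g i))) ?_
  have h3 : ∀ i, act γ⁻¹ (pbz (A i) (hA i) y) =
      algebraMap ℂ Mer ((Additive.toMul (kap X hm (cl f hf) (g i)) : ℂˣ) : ℂ) *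
        pbz (A (s i)) (hA _) y := by
    intro i
    have hp1 : 0 < (A i * (γ : M.M2)).det := by
      rw [Matrix.det_mul]; exact mul_pos (hA i) (SL_pos γ)
    have hp2 : 0 < ((g i : M.M2) * A (s i)).det := by
      rw [← h i]; exact hp1
    rw [← pbz_SL, ← pbz_mul (hA i) (SL_pos γ) hp1, pbz_congr (h i) hp1 hp2,
      pbz_mul (SL_pos _) (hA _) hp2, pbz_SL, kap_spec X hm f hf e (hg i), map_mul,
      AlgEquiv.commutes]
  rw [map_prod]
  simp_rw [h3]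
  rw [Finset.prod_mul_distrib, toMul_sum, Units.coe_prod, map_prod,
    Equiv.prod_comp s fun j => pbz (A j) (hA j) y]

/-- diamond operators -/
theorem kap_dia {N : ℕ} {H : Subgroup (ZMod N)ˣ} [CFF Qb (L (GH N H))] (A : Act X N H m)
    (a : (ZMod N)ˣ) (δ : SL(2, ℤ)) (h1 : (N : ℤ) ∣ δ 1 0) (h2 : (a : ZMod N) = ((δ 1 1 : ℤ) : ZMod N))
    (x : HA Qb (L (GH N H)) m) {γ : SL(2, ℤ)} (hγ : γ ∈ GH N H) (hγ' : δ * γ * δ⁻¹ ∈ GH N H) :
    kap X hm (A.dia a x) γ = kap X hm x (δ * γ * δ⁻¹) := by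
  have := kap_prod X hm (I := Unit) (fun _ => (δ : M.M2)) (fun _ => SL_pos δ) (u := A.dia a)
    ((A.dia_rep a δ h1 h2).congr fun x _ _ => by simp [Mdl.pg]) x hγ 1 (fun _ => δ * γ * δ⁻¹)
    (fun _ => hγ') (fun _ => by
      rw [← Matrix.SpecialLinearGroup.coe_mul, ← Matrix.SpecialLinearGroup.coe_mul,
        inv_mul_cancel_right])
  rw [Fintype.sum_unique] at this
  exact this.symm

/-- Hecke operators -/
theorem kap_hec {N : ℕ} {H : Subgroup (ZMod N)ˣ} [CFF Qb (L (GH N H))] (A : Act X N H m)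
    {l : ℕ} (hl : l.Prime) (hN : ¬ l ∣ N) (x : HA Qb (L (GH N H)) m) :
    Hec N (GH N H) l (kap X hm x) (kap X hm (A.T l x)) := fun d hd γ hγ s g hg h =>
  kap_prod X hm (al 1 l d) (al_pos hl.pos d) (u := A.T l) (A.T_rep l hl hN d hd) x hγ s g hg h

end Vale.Agent.P027M.Kp

namespace Vale.Agent.P027M.TW

open Vale.Agent.P027M.M

/-- **InKAP** -/
theorem inKAP (X : Mdl) (hG : GRP) {N : ℕ} {H : Subgroup (ZMod N)ˣ} (h : Ok N H) :
    InKAP X N H := by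
  intro j _ _ A
  have hm : 0 < 3 ^ j := pow_pos three_pos j
  obtain ⟨-, -, -, -, -, h1, -, h2⟩ := hG N h.lv
  exact ⟨Additive ℂˣ, inferInstance, Kp.kap X hm, Kp.kap_add X hm, Kp.kap_par X hm,
    Kp.kap_inj X hm h.pos (h1.trans ((h2 H).2.1 h.neg).lo),
    fun l hl x => Kp.kap_hec X hm A hl.1 (fun e => hl.2 (e.mul_left 6)) x⟩

end Vale.Agent.P027M.TW
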